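import Vale.Agent.P272.K.LIN.Cov
import Vale.Agent.P272.K.LIN.JetCalc

/-!
# P290Z, part III (K): pairs of Hoelder functions, the action of translations on jets
-/

set_option linter.all false
set_option maxSynthPendingDepth 3

open scoped ContDiff Topology NNReal
open Set Filter Metric

noncomputable section

namespace Vale.Agent.P290Z.Kur.Tr

open Vale.Agent.P272.K.LIN

section hol

variable {Y : Type} {w : Y → Y → ℝ≥0} {A B Z : Type} [NormedAddCommGroup A] [NormedSpace ℝ A]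
  [NormedAddCommGroup B] [NormedSpace ℝ B] [NormedAddCommGroup Z] [NormedSpace ℝ Z]

/-- constant functions, as a linear map -/
def constL (w : Y → Y → ℝ≥0) (A : Type) [NormedAddCommGroup A] [NormedSpace ℝ A] :
    A →L[ℝ] Hol w A :=
  LinearMap.mkContinuous
    { toFun := Hol.const
      map_add' := fun _ _ => rfl
      map_smul' := fun _ _ => rfl } 1 fun c => (Hol.norm_const_le c).trans_eq (one_mul _).symm

/-- the pair of two functions -/
def pair (f : Hol w A) (g : Hol w B) : Hol w (A × B) :=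
  Hol.map (ContinuousLinearMap.inl ℝ A B) f + Hol.map (ContinuousLinearMap.inr ℝ A B) g

theorem pair_apply (f : Hol w A) (g : Hol w B) (x : Y) : pair f g x = (f x, g x) := by
  simp [pair]

theorem contDiff_pair {f : Z → Hol w A} {g : Z → Hol w B} (hf : ContDiff ℝ ∞ f)
    (hg : ContDiff ℝ ∞ g) : ContDiff ℝ ∞ fun z => pair (f z) (g z) :=
  ((Hol.map (ContinuousLinearMap.inl ℝ A B)).contDiff.comp hf).add
    ((Hol.map (ContinuousLinearMap.inr ℝ A B)).contDiff.comp hg)

theorem contDiff_cut {β : Z → ℝ} {Φ : Z → A} {K : Set Z} (hK : IsClosed K) (hβ : ContDiff ℝ ∞ β)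
    (h0 : ∀ z, z ∉ K → β z = 0) (hΦ : ∀ z ∈ K, ContDiffAt ℝ ∞ Φ z) :
    ContDiff ℝ ∞ fun z => β z • Φ z := by
  refine contDiff_iff_contDiffAt.2 fun z => ?_
  by_cases hz : z ∈ K
  · exact hβ.contDiffAt.smul (hΦ z hz)
  · refine (contDiffAt_const (c := (0 : A))).congr_of_eventuallyEq ?_
    filter_upwards [hK.isOpen_compl.mem_nhds hz] with y hy
    rw [h0 y hy, zero_smul]

theorem contDiffAt_inv [CompleteSpace A] {T : Z → A →L[ℝ] A} {z : Z} (hT : ContDiffAt ℝ ∞ T z)
    (hu : IsUnit (T z)) : ContDiffAt ℝ ∞ (fun z => Ring.inverse (T z)) z :=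
  ContDiffAt.comp z (contDiffAt_ringInverse ℝ hu.unit) hT

theorem ev_unit [CompleteSpace A] {T : Z → A →L[ℝ] A} {z : Z} (hT : ContinuousAt T z)
    (hu : IsUnit (T z)) : ∀ᶠ y in 𝓝 z, IsUnit (T y) := hT.eventually (Units.isOpen.mem_nhds hu)

end hol

variable {E : Type} [NormedAddCommGroup E] [NormedSpace ℝ E] {θ : E → E → E}

/-- the action on jets of the map `θ s` at the point `y` -/
def TT (θ : E → E → E) (s y : E) : Jet E →L[ℝ] Jet E :=
  JT (fderiv ℝ (θ s) y) (fderiv ℝ (fderiv ℝ (θ s)) y)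

theorem contDiff_TT (h : ContDiff ℝ ∞ fun q : E × E => θ q.1 q.2) :
    ContDiff ℝ ∞ fun q : E × E => TT θ q.1 q.2 := by
  have h1 : ContDiff ℝ ∞ fun q : E × E => fderiv ℝ (θ q.1) q.2 :=
    ContDiff.fderiv (f := fun (q : E × E) y => θ q.1 y)
      (h.comp (contDiff_fst.fst.prodMk contDiff_snd)) contDiff_snd le_rfl
  have h2 : ContDiff ℝ ∞ fun q : E × E => fderiv ℝ (fderiv ℝ (θ q.1)) q.2 :=
    ContDiff.fderiv (f := fun (q : E × E) y => fderiv ℝ (θ q.1) y)
      (h1.comp (contDiff_fst.fst.prodMk contDiff_snd)) contDiff_snd le_rfl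
  have h3 := (contDiff_JT (E := E) (F := E)).comp (h1.prodMk h2)
  exact h3

theorem TT_id {s y : E} (h : θ s =ᶠ[𝓝 y] id) : TT θ s y = 1 := by
  have h1 : fderiv ℝ (id : E → E) = fun _ => ContinuousLinearMap.id ℝ E :=
    funext fun _ => fderiv_id
  rw [TT, h.fderiv_eq, h.fderiv.fderiv_eq, h1, fderiv_fun_const]
  refine ContinuousLinearMap.ext fun p => Prod.ext rfl (Prod.ext rfl ?_)
  ext u v
  rw [JT_snd_snd]
  simp

theorem exists_unit (h : ContDiff ℝ ∞ fun q : E × E => θ q.1 q.2) (h0 : θ 0 = id) {K : Set E}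
    (hK : IsCompact K) : ∃ δ > (0 : ℝ), ∀ s ∈ closedBall (0 : E) δ, ∀ y ∈ K,
      IsUnit (TT θ s y) := by
  have := hK.eventually_forall_of_forall_eventually (x₀ := (0 : E))
    (P := fun s y => IsUnit (TT θ s y)) fun y _ =>
      ev_unit (contDiff_TT h).continuous.continuousAt (by
        show IsUnit (TT θ 0 y)
        rw [TT_id (by rw [h0])]
        exact isUnit_one)
  exact nhds_basis_closedBall.eventually_iff.1 this

theorem jet_add_const (f : E → ℝ) (a : ℝ) (y : E) :
    (jet (fun z => f z + a) y).2 = (jet f y).2 := by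
  have : fderiv ℝ (fun z => f z + a) = fderiv ℝ f := funext fun _ => fderiv_add_const a
  simp only [jet, this]

theorem inv_jet {s y : E} (hu : IsUnit (TT θ s y)) (hθ : ContDiffAt ℝ 2 (θ s) y) {f f' : E → ℝ}
    (hf : ContDiffAt ℝ 2 f (θ s y)) {a : ℝ} (e : f' =ᶠ[𝓝 y] fun z => f (θ s z) + a) :
    (Ring.inverse (TT θ s y) (jet f' y)).2 = (jet f (θ s y)).2 := by
  have h1 := jet_comp (g := fun z => f z + a) (hf.add contDiffAt_const) hθ
  have h2 : Ring.inverse (TT θ s y) (TT θ s y (jet (fun z => f z + a) (θ s y))) = _ :=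
    DFunLike.congr_fun (Ring.inverse_mul_cancel _ hu) _
  rw [jet_congr e, h1]
  exact (congrArg Prod.snd h2).trans (jet_add_const f a _)

end Vale.Agent.P290Z.Kur.Tr
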